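/-
TetraLib (row S0324–S0329): coordinate inequalities for points of the standard tetrahedron.
Owner: helper4.
-/
import Crest.Agent.TetraLib.Defs

set_option autoImplicit false

namespace Crest.Agent.Tetra

/-- points of the standard tetrahedron satisfy the coordinate inequalities (`lam = z/√2`). -/
theorem Kstd_coords' {P : E3} (hP : P ∈ Kstd) :
    0 ≤ P 2 / Real.sqrt 2 ∧ P 2 / Real.sqrt 2 ≤ 1 ∧ |P 0| ≤ 1 - P 2 / Real.sqrt 2 ∧
      |P 1| ≤ P 2 / Real.sqrt 2 := by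
  have hs : (0 : ℝ) < Real.sqrt 2 := Real.sqrt_pos.mpr (by norm_num)
  have hconv : Convex ℝ {Q : E3 | 0 ≤ Q 2 / Real.sqrt 2 ∧ Q 2 / Real.sqrt 2 ≤ 1 ∧
      |Q 0| ≤ 1 - Q 2 / Real.sqrt 2 ∧ |Q 1| ≤ Q 2 / Real.sqrt 2} := by
    rintro Q ⟨h1, h2, h3, h4⟩ Q' ⟨h1', h2', h3', h4'⟩ a b ha hb hab
    rw [abs_le] at h3 h4 h3' h4'
    simp only [Set.mem_ofPred_eq, PiLp.add_apply, PiLp.smul_apply, smul_eq_mul, abs_le]
    have e2 : (a * Q 2 + b * Q' 2) / Real.sqrt 2 =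
        a * (Q 2 / Real.sqrt 2) + b * (Q' 2 / Real.sqrt 2) := by ring
    rw [e2]
    have hb' : b = 1 - a := by linarith
    subst hb'
    refine ⟨by positivity, ?_, ⟨?_, ?_⟩, ⟨?_, ?_⟩⟩ <;> nlinarith
  refine convexHull_min ?_ hconv hP
  intro Q hQ
  simp only [Set.mem_insert_iff, Set.mem_singleton_iff] at hQ
  rcases hQ with rfl | rfl | rfl | rfl <;>
    simp [abs_le]
end Crest.Agent.Tetra
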